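import Mathlib

/-!
# The main lemma on pairs of matchings
-/

namespace Vale.Agent.P038.H187

open Finset

variable {V : Type*} [Fintype V] [DecidableEq V]

/-- `f` matches `Y` into `S` along the relation `A`. -/
def IsMatch (A : V → V → Prop) (f : V → V) (Y S : Finset V) : Prop :=
  (∀ y ∈ Y, A y (f y) ∧ f y ∈ S) ∧ ∀ y ∈ Y, ∀ y' ∈ Y, f y = f y' → y = y'

open Classical in
/-- Hall's theorem for a relation. -/
theorem hall (A : V → V → Prop) (Y S : Finset V)
    (h : ∀ Y' ⊆ Y, Y'.card ≤ (S.filter fun b => ∃ y ∈ Y', A y b).card) :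
    ∃ f, IsMatch A f Y S := by
  have key : ∀ s : Finset {y // y ∈ Y},
      s.card ≤ (s.biUnion fun y => S.filter fun b => A y.1 b).card := by
    intro s
    have h1 := h (s.map (Function.Embedding.subtype _)) (by
      intro y hy
      rw [Finset.mem_map] at hy
      obtain ⟨x, _, rfl⟩ := hy
      exact x.2)
    rw [Finset.card_map] at h1
    refine h1.trans (Finset.card_le_card ?_)
    intro b hb
    rw [Finset.mem_filter] at hb
    obtain ⟨hbS, y, hy, hA⟩ := hb
    rw [Finset.mem_map] at hy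
    obtain ⟨x, hx, rfl⟩ := hy
    rw [Finset.mem_biUnion]
    exact ⟨x, hx, Finset.mem_filter.2 ⟨hbS, hA⟩⟩
  obtain ⟨g, hg, hg'⟩ := (Finset.all_card_le_biUnion_card_iff_exists_injective _).1 key
  refine ⟨fun y => if hy : y ∈ Y then g ⟨y, hy⟩ else y, ?_, ?_⟩
  · intro y hy
    have := hg' ⟨y, hy⟩
    rw [Finset.mem_filter] at this
    simp only [hy, dif_pos]
    exact ⟨this.2, this.1⟩
  · intro y hy y' hy' he
    simp only [hy, hy', dif_pos] at he
    exact congrArg Subtype.val (hg he)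

/-- A numbering of the vertices. -/
noncomputable def num : V ≃ Fin (Fintype.card V) := Fintype.equivFin V

/-- The weight of a matching. -/
noncomputable def wt (f : V → V) (Y : Finset V) : ℕ := ∑ y ∈ Y, 2 ^ ((num (f y) : Fin _) : ℕ)

/-- A matching with image of maximal weight. -/
def IsMax (A : V → V → Prop) (f : V → V) (Y S : Finset V) : Prop :=
  IsMatch A f Y S ∧ ∀ g, IsMatch A g Y S → wt g Y ≤ wt f Y

theorem exists_max (A : V → V → Prop) (Y S : Finset V) (h : ∃ f, IsMatch A f Y S) :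
    ∃ f, IsMax A f Y S := by
  classical
  obtain ⟨f0, hf0⟩ := h
  obtain ⟨f, hf, hmax⟩ := Finset.exists_max_image
    (Finset.univ.filter fun f : V → V => IsMatch A f Y S) (fun f => wt f Y)
    ⟨f0, Finset.mem_filter.2 ⟨Finset.mem_univ _, hf0⟩⟩
  exact ⟨f, (Finset.mem_filter.1 hf).2, fun g hg =>
    hmax g (Finset.mem_filter.2 ⟨Finset.mem_univ _, hg⟩)⟩

theorem image_eq {S T : Finset V}
    (h : ∑ v ∈ S, 2 ^ ((num v : Fin _) : ℕ) = ∑ v ∈ T, 2 ^ ((num v : Fin _) : ℕ)) : S = T := by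
  have hinj : Function.Injective (fun v : V => ((num v : Fin _) : ℕ)) :=
    Fin.val_injective.comp (num (V := V)).injective
  have e1 : ∀ R : Finset V, ∑ v ∈ R, 2 ^ ((num v : Fin _) : ℕ)
      = ∑ i ∈ R.map ⟨fun v : V => ((num v : Fin _) : ℕ), hinj⟩, 2 ^ i := by
    intro R
    rw [Finset.sum_map]
    rfl
  rw [e1 S, e1 T] at h
  have := Finset.geomSum_injective (n := 2) le_rfl h
  exact Finset.map_injective _ this

/-- The orbit of `b0`. -/
inductive Orb (f m : V → V) (P : Finset V) (b0 : V) : V → Prop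
  | base : Orb f m P b0 b0
  | step {y : V} : y ∈ P → Orb f m P b0 (m y) → Orb f m P b0 (f y)

theorem exchange {A : V → V → Prop} {f m : V → V} {U F P Fz : Finset V}
    (hf : IsMax A f U F) (hm : IsMax A m P Fz) (hF : F ⊆ Fz)
    (hc : ∀ y ∈ P, ∀ b ∈ F, A y b → y ∈ U)
    {y0 : V} (hy0 : y0 ∈ P) (hb0 : m y0 ∈ F) : ∃ y ∈ U, f y = m y0 := by
  classical
  by_contra hcon
  push Not at hcon
  have horbF : ∀ v, Orb f m P (m y0) v → v ∈ F := by
    intro v hv
    induction hv with
    | base => exact hb0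
    | step hy _ ih => exact (hf.1.1 _ (hc _ hy _ ih (hm.1.1 _ hy).1)).2
  set YO := P.filter fun y => Orb f m P (m y0) (m y) with hYO
  have hYOP : YO ⊆ P := Finset.filter_subset _ _
  have hYOU : YO ⊆ U := by
    intro y hy
    rw [hYO, Finset.mem_filter] at hy
    exact hc y hy.1 _ (horbF _ hy.2) (hm.1.1 _ hy.1).1
  have horb : ∀ y ∈ U, Orb f m P (m y0) (f y) → y ∈ YO := by
    intro y hy h
    generalize hv : f y = v at h
    cases h with
    | base => exact absurd hv (hcon y hy)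
    | @step y' hy' h' =>
      have : y' ∈ YO := by
        rw [hYO, Finset.mem_filter]
        exact ⟨hy', h'⟩
      have he := hf.1.2 y hy y' (hYOU this) hv
      rw [he]
      exact this
  set f' : V → V := fun y => if y ∈ YO then m y else f y with hf'
  set m' : V → V := fun y => if y ∈ YO then f y else m y with hm'
  have hf'in : ∀ y, y ∈ YO → f' y = m y := fun y hy => by simp [hf', hy]
  have hf'out : ∀ y, y ∉ YO → f' y = f y := fun y hy => by simp [hf', hy]
  have hm'in : ∀ y, y ∈ YO → m' y = f y := fun y hy => by simp [hm', hy]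
  have hm'out : ∀ y, y ∉ YO → m' y = m y := fun y hy => by simp [hm', hy]
  have hYOorb : ∀ y, y ∈ YO → Orb f m P (m y0) (m y) := fun y hy => by
    rw [hYO, Finset.mem_filter] at hy
    exact hy.2
  have hf'M : IsMatch A f' U F := by
    refine ⟨?_, ?_⟩
    · intro y hy
      by_cases h : y ∈ YO
      · rw [hf'in y h]
        exact ⟨(hm.1.1 _ (hYOP h)).1, horbF _ (hYOorb y h)⟩
      · rw [hf'out y h]
        exact hf.1.1 y hy
    · intro y hy y' hy' he
      by_cases h : y ∈ YO <;> by_cases h' : y' ∈ YO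
      · rw [hf'in y h, hf'in y' h'] at he
        exact hm.1.2 y (hYOP h) y' (hYOP h') he
      · rw [hf'in y h, hf'out y' h'] at he
        exact absurd (horb y' hy' (he ▸ hYOorb y h)) h'
      · rw [hf'out y h, hf'in y' h'] at he
        exact absurd (horb y hy (he.symm ▸ hYOorb y' h')) h
      · rw [hf'out y h, hf'out y' h'] at he
        exact hf.1.2 y hy y' hy' he
  have hm'M : IsMatch A m' P Fz := by
    refine ⟨?_, ?_⟩
    · intro y hy
      by_cases h : y ∈ YO
      · rw [hm'in y h]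
        exact ⟨(hf.1.1 _ (hYOU h)).1, hF (hf.1.1 _ (hYOU h)).2⟩
      · rw [hm'out y h]
        exact hm.1.1 y hy
    · intro y hy y' hy' he
      by_cases h : y ∈ YO <;> by_cases h' : y' ∈ YO
      · rw [hm'in y h, hm'in y' h'] at he
        exact hf.1.2 y (hYOU h) y' (hYOU h') he
      · rw [hm'in y h, hm'out y' h'] at he
        refine absurd ?_ h'
        rw [hYO, Finset.mem_filter]
        exact ⟨hy', he ▸ Orb.step (hYOP h) (hYOorb y h)⟩
      · rw [hm'out y h, hm'in y' h'] at he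
        refine absurd ?_ h
        rw [hYO, Finset.mem_filter]
        exact ⟨hy, he.symm ▸ Orb.step (hYOP h') (hYOorb y' h')⟩
      · rw [hm'out y h, hm'out y' h'] at he
        exact hm.1.2 y hy y' hy' he
  have w1 := hf.2 f' hf'M
  have w2 := hm.2 m' hm'M
  unfold wt at w1 w2
  rw [← Finset.sum_sdiff hYOU, ← Finset.sum_sdiff hYOU] at w1
  rw [← Finset.sum_sdiff hYOP, ← Finset.sum_sdiff hYOP] at w2
  have e1 : ∑ y ∈ U \ YO, 2 ^ ((num (f' y) : Fin _) : ℕ) = ∑ y ∈ U \ YO, 2 ^ ((num (f y) : Fin _) : ℕ) :=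
    Finset.sum_congr rfl fun y hy => by rw [hf'out y (Finset.mem_sdiff.1 hy).2]
  have e2 : ∑ y ∈ YO, 2 ^ ((num (f' y) : Fin _) : ℕ) = ∑ y ∈ YO, 2 ^ ((num (m y) : Fin _) : ℕ) :=
    Finset.sum_congr rfl fun y hy => by rw [hf'in y hy]
  have e3 : ∑ y ∈ P \ YO, 2 ^ ((num (m' y) : Fin _) : ℕ) = ∑ y ∈ P \ YO, 2 ^ ((num (m y) : Fin _) : ℕ) :=
    Finset.sum_congr rfl fun y hy => by rw [hm'out y (Finset.mem_sdiff.1 hy).2]
  have e4 : ∑ y ∈ YO, 2 ^ ((num (m' y) : Fin _) : ℕ) = ∑ y ∈ YO, 2 ^ ((num (f y) : Fin _) : ℕ) :=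
    Finset.sum_congr rfl fun y hy => by rw [hm'in y hy]
  rw [e1, e2] at w1
  rw [e3, e4] at w2
  have heq : ∑ y ∈ YO, 2 ^ ((num (f y) : Fin _) : ℕ) = ∑ y ∈ YO, 2 ^ ((num (m y) : Fin _) : ℕ) := by
    omega
  have i1 : ∑ y ∈ YO, 2 ^ ((num (f y) : Fin _) : ℕ) = ∑ v ∈ YO.image f, 2 ^ ((num v : Fin _) : ℕ) := by
    rw [Finset.sum_image]
    intro y hy y' hy' he
    exact hf.1.2 y (hYOU hy) y' (hYOU hy') he
  have i2 : ∑ y ∈ YO, 2 ^ ((num (m y) : Fin _) : ℕ) = ∑ v ∈ YO.image m, 2 ^ ((num v : Fin _) : ℕ) := by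
    rw [Finset.sum_image]
    intro y hy y' hy' he
    exact hm.1.2 y (hYOP hy) y' (hYOP hy') he
  rw [i1, i2] at heq
  have hS := image_eq heq
  have hy0O : y0 ∈ YO := by
    rw [hYO, Finset.mem_filter]
    exact ⟨hy0, Orb.base⟩
  have : m y0 ∈ YO.image f := by
    rw [hS]
    exact Finset.mem_image_of_mem _ hy0O
  obtain ⟨y, hy, he⟩ := Finset.mem_image.1 this
  exact hcon y (hYOU hy) he

open Classical in
/-- Hall's condition for a column. -/
theorem column_hall (A : V → V → Prop) (U P1 P2 : V → V → Prop)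
    (h1 : ∀ a, ∀ Y : Finset V, (∀ y ∈ Y, U y a) →
      Y.card ≤ (univ.filter fun b => P1 a b ∧ ∃ y ∈ Y, A y b).card)
    (h3 : ∀ y a b z, A y b → A a z → P2 y z → P1 a b → U y a)
    (h4 : ∀ y z, P2 y z → ∃ a, A a z ∧ U y a) (z : V) (n : ℕ) :
    ∀ Y : Finset V, Y.card = n → (∀ y ∈ Y, P2 y z) →
      Y.card ≤ (univ.filter fun b => (∃ a, A a z ∧ P1 a b) ∧ ∃ y ∈ Y, A y b).card := by
  induction n using Nat.strong_induction_on with
  | _ n ih =>
    intro Y hn hY
    rcases Y.eq_empty_or_nonempty with rfl | ⟨y, hy⟩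
    · simp
    obtain ⟨a, haz, hya⟩ := h4 y z (hY y hy)
    set Ya := Y.filter fun y => U y a with hYa
    have hYa1 := h1 a Ya (fun y hy => (Finset.mem_filter.1 hy).2)
    have hsub : Ya ⊆ Y := Finset.filter_subset _ _
    have hyYa : y ∈ Ya := Finset.mem_filter.2 ⟨hy, hya⟩
    have hcard : (Y \ Ya).card + Ya.card = Y.card := Finset.card_sdiff_add_card_eq_card hsub
    have hpos : 0 < Ya.card := Finset.card_pos.2 ⟨y, hyYa⟩
    have h2 := ih (Y \ Ya).card (by omega) (Y \ Ya) rfl
      (fun y hy => hY y (Finset.mem_sdiff.1 hy).1)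
    have hdisj : Disjoint (univ.filter fun b => P1 a b ∧ ∃ y ∈ Ya, A y b)
        (univ.filter fun b => (∃ a, A a z ∧ P1 a b) ∧ ∃ y ∈ Y \ Ya, A y b) := by
      rw [Finset.disjoint_left]
      intro b hb hb'
      rw [Finset.mem_filter] at hb hb'
      obtain ⟨_, hP, _⟩ := hb
      obtain ⟨_, _, y', hy', hA⟩ := hb'
      rw [Finset.mem_sdiff] at hy'
      exact hy'.2 (Finset.mem_filter.2 ⟨hy'.1, h3 y' a b z hA haz (hY y' hy'.1) hP⟩)
    have hle : ((univ.filter fun b => P1 a b ∧ ∃ y ∈ Ya, A y b) ∪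
        (univ.filter fun b => (∃ a, A a z ∧ P1 a b) ∧ ∃ y ∈ Y \ Ya, A y b)) ⊆
        (univ.filter fun b => (∃ a, A a z ∧ P1 a b) ∧ ∃ y ∈ Y, A y b) := by
      intro b hb
      rw [Finset.mem_union, Finset.mem_filter, Finset.mem_filter] at hb
      rw [Finset.mem_filter]
      rcases hb with ⟨_, hP, y', hy', hA⟩ | ⟨_, hP, y', hy', hA⟩
      · exact ⟨Finset.mem_univ _, ⟨a, haz, hP⟩, y', hsub hy', hA⟩
      · exact ⟨Finset.mem_univ _, hP, y', (Finset.mem_sdiff.1 hy').1, hA⟩
    have := Finset.card_le_card hle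
    rw [Finset.card_union_of_disjoint hdisj] at this
    omega

open Classical in
/-- The main lemma. -/
theorem main_lemma (A : V → V → Prop) (U P1 P2 : V → V → Prop)
    (h1 : ∀ a, ∀ Y : Finset V, (∀ y ∈ Y, U y a) →
      Y.card ≤ (univ.filter fun b => P1 a b ∧ ∃ y ∈ Y, A y b).card)
    (h2 : ∀ y, ∀ Z : Finset V, (∀ a ∈ Z, U y a) →
      Z.card ≤ (univ.filter fun z => P2 y z ∧ ∃ a ∈ Z, A a z).card)
    (h3 : ∀ y a b z, A y b → A a z → P2 y z → P1 a b → U y a)
    (h4 : ∀ y z, P2 y z → ∃ a, A a z ∧ U y a)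
    (h4' : ∀ a b, P1 a b → ∃ y, A y b ∧ U y a) :
    (univ.filter fun p : V × V => P1 p.1 p.2).card + (univ.filter fun p : V × V => P2 p.1 p.2).card
      ≤ (univ.filter fun p : V × V =>
          (∃ a, A a p.2 ∧ P1 a p.1) ∧ ∃ y, A y p.1 ∧ P2 y p.2).card
        + (univ.filter fun p : V × V => U p.1 p.2).card := by
  -- the row matchings
  have hf : ∀ a, ∃ f, IsMax A f (univ.filter fun y => U y a) (univ.filter fun b => P1 a b) := by
    intro a
    refine exists_max _ _ _ (hall _ _ _ ?_)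
    intro Y hY
    refine (h1 a Y fun y hy => (Finset.mem_filter.1 (hY hy)).2).trans (Finset.card_le_card ?_)
    intro b hb
    simp only [Finset.mem_filter, Finset.mem_univ, true_and] at hb ⊢
    exact hb
  choose f hf using hf
  -- the column matchings
  have hm : ∀ z, ∃ m, IsMax A m (univ.filter fun y => P2 y z)
      (univ.filter fun b => ∃ a, A a z ∧ P1 a b) := by
    intro z
    refine exists_max _ _ _ (hall _ _ _ ?_)
    intro Y hY
    refine (column_hall A U P1 P2 h1 h3 h4 z Y.card Y rfl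
      fun y hy => (Finset.mem_filter.1 (hY hy)).2).trans (Finset.card_le_card ?_)
    intro b hb
    simp only [Finset.mem_filter, Finset.mem_univ, true_and] at hb ⊢
    exact hb
  choose m hm using hm
  have hn : ∀ b, ∃ n, IsMatch A n (univ.filter fun a => P1 a b)
      (univ.filter fun z => ∃ y, A y b ∧ P2 y z) := by
    intro b
    refine hall _ _ _ ?_
    intro Y hY
    refine (column_hall A (fun y a => U a y) P2 P1 (fun a Y hY => h2 a Y hY)
      (fun y a b z h h' hp hq => h3 a y z b h' h hq hp) (fun y z h => h4' y z h) b Y.card Y rfl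
      fun y hy => (Finset.mem_filter.1 (hY hy)).2).trans (Finset.card_le_card ?_)
    intro b hb
    simp only [Finset.mem_filter, Finset.mem_univ, true_and] at hb ⊢
    exact hb
  choose n hn using hn
  -- the two images
  set Q1 := univ.filter fun p : V × V => P1 p.1 p.2 with hQ1
  set Q2 := univ.filter fun p : V × V => P2 p.1 p.2 with hQ2
  set T := univ.filter fun p : V × V =>
          (∃ a, A a p.2 ∧ P1 a p.1) ∧ ∃ y, A y p.1 ∧ P2 y p.2 with hT
  set Q := univ.filter fun p : V × V => U p.1 p.2 with hQ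
  set S2 := Q2.image fun p => (m p.2 p.1, p.2) with hS2
  set S1 := Q1.image fun p => (p.2, n p.2 p.1) with hS1
  have c2 : S2.card = Q2.card := by
    apply Finset.card_image_of_injOn
    intro p hp q hq he
    simp only [Prod.mk.injEq] at he
    obtain ⟨e1, e2⟩ := he
    have hp' : P2 p.1 p.2 := (Finset.mem_filter.1 hp).2
    have hq' : P2 q.1 q.2 := (Finset.mem_filter.1 hq).2
    rw [← e2] at e1 hq'
    have := (hm p.2).1.2 p.1 (by simpa using hp') q.1 (by simpa using hq') e1
    exact Prod.ext this e2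
  have c1 : S1.card = Q1.card := by
    apply Finset.card_image_of_injOn
    intro p hp q hq he
    simp only [Prod.mk.injEq] at he
    obtain ⟨e1, e2⟩ := he
    have hp' : P1 p.1 p.2 := (Finset.mem_filter.1 hp).2
    have hq' : P1 q.1 q.2 := (Finset.mem_filter.1 hq).2
    rw [← e1] at e2 hq'
    have := (hn p.2).2 p.1 (by simpa using hp') q.1 (by simpa using hq') e2
    exact Prod.ext this e1
  have s2 : S2 ⊆ T := by
    intro x hx
    obtain ⟨p, hp, rfl⟩ := Finset.mem_image.1 hx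
    have hp' : P2 p.1 p.2 := (Finset.mem_filter.1 hp).2
    have h := (hm p.2).1.1 p.1 (by simpa using hp')
    rw [hT, Finset.mem_filter]
    refine ⟨Finset.mem_univ _, by simpa using h.2, p.1, h.1, hp'⟩
  have s1 : S1 ⊆ T := by
    intro x hx
    obtain ⟨p, hp, rfl⟩ := Finset.mem_image.1 hx
    have hp' : P1 p.1 p.2 := (Finset.mem_filter.1 hp).2
    have h := (hn p.2).1 p.1 (by simpa using hp')
    rw [hT, Finset.mem_filter]
    refine ⟨Finset.mem_univ _, ⟨p.1, h.1, hp'⟩, by simpa using h.2⟩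
  -- the intersection injects into `Q`
  have hint : (S1 ∩ S2).card ≤ Q.card := by
    have hex : ∀ x ∈ S1 ∩ S2, ∃ q : V × V, q ∈ Q ∧ f q.2 q.1 = x.1 ∧ n x.1 q.2 = x.2 := by
      intro x hx
      rw [Finset.mem_inter] at hx
      obtain ⟨p, hp, hpx⟩ := Finset.mem_image.1 hx.1
      obtain ⟨q, hq, hqx⟩ := Finset.mem_image.1 hx.2
      have hp' : P1 p.1 p.2 := (Finset.mem_filter.1 hp).2
      have hq' : P2 q.1 q.2 := (Finset.mem_filter.1 hq).2
      have hnp := (hn p.2).1 p.1 (by simpa using hp')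
      have e1 : x.1 = p.2 := by rw [← hpx]
      have e2 : x.2 = n p.2 p.1 := by rw [← hpx]
      have e3 : x.1 = m q.2 q.1 := by rw [← hqx]
      have e4 : x.2 = q.2 := by rw [← hqx]
      -- `p.1 ∈ N⁻[x.2]`, `x.1 ∈ F^{p.1}`
      have hA : A p.1 q.2 := by rw [← e4, e2]; exact hnp.1
      have hF : (univ.filter fun b => P1 p.1 b) ⊆
          (univ.filter fun b => ∃ a, A a q.2 ∧ P1 a b) := by
        intro b hb
        simp only [Finset.mem_filter, Finset.mem_univ, true_and] at hb ⊢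
        exact ⟨p.1, hA, hb⟩
      obtain ⟨y', hy', he⟩ := exchange (hf p.1) (hm q.2) hF (by
        intro y hy b hb hAb
        simp only [Finset.mem_filter, Finset.mem_univ, true_and] at hy hb ⊢
        exact h3 y p.1 b q.2 hAb hA hy hb) (y0 := q.1) (by simpa using hq') (by
        simp only [Finset.mem_filter, Finset.mem_univ, true_and]
        rw [← e3, e1]
        exact hp')
      refine ⟨(y', p.1), ?_, ?_, ?_⟩
      · rw [hQ, Finset.mem_filter]
        exact ⟨Finset.mem_univ _, by simpa using hy'⟩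
      · show f p.1 y' = x.1
        rw [he, e3]
      · show n x.1 p.1 = x.2
        rw [e2, e1]
    choose! g hg using hex
    refine Finset.card_le_card_of_injOn g (fun x hx => (hg x hx).1) ?_
    intro x hx y hy he
    have hx' := hg x hx
    have hy' := hg y hy
    have e1 : x.1 = y.1 := by rw [← hx'.2.1, ← hy'.2.1, he]
    have e2 : x.2 = y.2 := by rw [← hx'.2.2, ← hy'.2.2, he, e1]
    exact Prod.ext e1 e2
  have hun : (S1 ∪ S2).card ≤ T.card := Finset.card_le_card (Finset.union_subset s1 s2)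
  have := Finset.card_union_add_card_inter S1 S2
  omega

end Vale.Agent.P038.H187
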